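import Vale.Agent.P022.H567.Dih
import Vale.Agent.P022.H220.Dih
import Vale.Agent.P022.H916.Pot
import Vale.Agent.P022.H933.St.Bridge

/-!
P022, Question 1: the conclusion of the question for all potentially reducible representations
with infinite projective image and for all dihedral ones. For a finite extension `E` of `ℚ₂`, every
continuous, odd, absolutely irreducible `r : Gal(ℚ̄/ℚ) → GL₂(E)` unramified outside finitely many
primes whose restriction to the group of some quadratic field is commutative (or whose
restriction to the group of some number field is reducible and whose projective image is infinite)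
is unramified outside `2N` and occurs in the 2-adic Hecke algebra of level `Γ₁(N)`, for an odd `N`.
-/

open Vale.Agent.P022

namespace Vale.Agent.Results.P022.DihedralProModular

theorem result (E : Type) [NontriviallyNormedField E] [NormedAlgebra ℚ_[2] E]
    [FiniteDimensional ℚ_[2] E]
    (r : (AlgebraicClosure ℚ ≃ₐ[ℚ] AlgebraicClosure ℚ) →* GL (Fin 2) E)
    (hc : Continuous r) (ho : St.OddRep r) (hi : St.AbsIrr r)
    (hS : {p : ℕ | p.Prime ∧ ¬ St.UnrAt r p}.Finite)
    (hd : St.Dihedral r ∨ (St.PotRed r ∧ St.InfProj r)) :
    St.Q1Concl r :=
  St.q1Concl r (C.q1_dihedral E r hc ho hi hS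
    ((H220.dihedral_iff r hi).2.2
      (hd.elim id fun h => H916.dihedral_of_potRed r hi h.1 h.2)))

end Vale.Agent.Results.P022.DihedralProModular
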