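import Vale.Agent.P022.H132.L3.Top
import Vale.Agent.P022.H914.L3.FamKer
import Vale.Agent.P022.H138.L3.Gal
import Vale.Agent.P022.H20.L3.Def3
import Vale.Agent.P022.H13.L3.Occ3
import Vale.Agent.P022.H431.Sv.Fin
import Vale.Agent.P022.H567.Tw.Inr
import Vale.Agent.P022.H567.GchF
import Vale.Agent.P022.H790.L3.Ct3

/-!
P022, Question 1 for a class of representations which are irreducible on every open subgroup in
general: `r : Gal(ℚ̄/ℚ) → GL₂(E)`, continuous, odd, ramified at finitely many primes, a twist of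
which by a continuous character of `Gal(ℚ̄/ℚ)` is a representation `r₀` unramified outside
`{2, 3}`, with solvable residual image (no condition if the residue field of `E` has two elements)
and `r₀|I₃ = 1 ⊕ ε` with `ε` of order two.
-/

open Vale.Agent.P022

namespace Vale.Agent.Results.P022.LevelThreeClass

theorem result (E : Type) [NontriviallyNormedField E] [NormedAlgebra ℚ_[2] E]
    [FiniteDimensional ℚ_[2] E]
    (r r₀ : (AlgebraicClosure ℚ ≃ₐ[ℚ] AlgebraicClosure ℚ) →* GL (Fin 2) E)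
    (hc : Continuous r) (ho : St.OddRep r) (hS : {p : ℕ | p.Prime ∧ ¬ St.UnrAt r p}.Finite)
    (ψ : (AlgebraicClosure ℚ ≃ₐ[ℚ] AlgebraicClosure ℚ) →* Eˣ) (hψ : Continuous ψ)
    (h0 : ∀ g, (r g : Matrix (Fin 2) (Fin 2) E) =
      ((ψ g : Eˣ) : E) • (r₀ g : Matrix (Fin 2) (Fin 2) E))
    (hu : ∀ p : ℕ, p.Prime → p ≠ 2 → p ≠ 3 → St.UnrAt r₀ p)
    (h3 : St.PrincipalAt3 r₀) (hr : St.ResSolv r₀ ∨ St.ResTwo E) : St.Q1Concl r := by
  have hE : IsUltrametricDist E := IsUltrametricDist.of_normedAlgebra ℚ_[2]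
  have hr0 : r₀ = H790.CT.tws ψ⁻¹ r := by
    ext1 g
    apply Units.ext
    rw [H790.CT.tws_apply, h0 g, smul_smul, MonoidHom.inv_apply, Units.inv_mul, one_smul]
  have hc0 : Continuous r₀ := by
    rw [hr0]
    exact H790.CT.continuous_tws hψ.inv hc
  have h : C3 r₀ := ⟨hu, Sv.solvStmt E r₀ hc0 hu h3 hr, h3.2, h3.1⟩
  obtain ⟨m, iNZ, ψf, r₁, hm, hc1, ho1, h31, htw, hram⟩ :=
    H790.CT.ctw C.GCHF r r₀ ψ hψ hc ho hS h0 h
  have ho3 : Occurs E 3 r₁ := H20.fin3Occ E r₁ h31 fun φ hφ ε hε =>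
    H132.Z.estimate (H914.L3.fam_ker L3.gal L3.hex) E r₁ hc1 ho1 h31 φ hφ ε hε
  exact St.q1_three_twist E r₁ r ho3 h31 m hm ψf htw

end Vale.Agent.Results.P022.LevelThreeClass
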